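import Mathlib

namespace Vale.Agent.Results.P033.TwistedReflection

open Finset

/-- `h` is the first row of a real circulant Hadamard matrix of order `n`: the circulant matrix
`H i j = h (j - i)` (indices mod `n`) has all entries `±1` and satisfies `H Hᵀ = n I`. -/
def IsCirculantHadamardRow (n : ℕ) [NeZero n] (h : ZMod n → ℤ) : Prop :=
  (∀ j, h j = 1 ∨ h j = -1) ∧
  (Matrix.of fun i j : ZMod n => h (j - i)) * (Matrix.of fun i j : ZMod n => h (j - i)).transpose
    = (n : ℤ) • (1 : Matrix (ZMod n) (ZMod n) ℤ)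

lemma autocorr {n : ℕ} [NeZero n] {h : ZMod n → ℤ} (hH : IsCirculantHadamardRow n h)
    (a b : ZMod n) : ∑ y, h (y + a) * h (y + b) = if a = b then (n : ℤ) else 0 := by
  have h2 := congrFun (congrFun hH.2 (-a)) (-b)
  simp only [Matrix.mul_apply, Matrix.transpose_apply, Matrix.of_apply, sub_neg_eq_add,
    Matrix.smul_apply, Matrix.one_apply, neg_inj] at h2
  rw [h2]
  split_ifs <;> simp

/-- the element of order two of `Z/n`, `n` even -/
lemma exists_iota {n : ℕ} [NeZero n] (hev : Even n) :
    ∃ ι : ZMod n, ι ≠ 0 ∧ ι + ι = 0 ∧ ∀ x : ZMod n, x + x = 0 → x = 0 ∨ x = ι := by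
  obtain ⟨m, hm⟩ := hev
  have hn : 0 < n := Nat.pos_of_ne_zero (NeZero.ne n)
  refine ⟨(m : ZMod n), ?_, ?_, ?_⟩
  · intro h0
    rw [ZMod.natCast_eq_zero_iff] at h0
    have := Nat.le_of_dvd (by omega) h0
    omega
  · rw [← Nat.cast_add, ← hm]
    exact ZMod.natCast_self n
  · intro x hx
    have hx' : ((x.val + x.val : ℕ) : ZMod n) = 0 := by
      rw [Nat.cast_add, ZMod.natCast_zmod_val]
      exact hx
    rw [ZMod.natCast_eq_zero_iff] at hx'
    have hlt := ZMod.val_lt x
    obtain ⟨k, hk⟩ := hx'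
    have hk2 : k = 0 ∨ k = 1 := by
      rcases k with _ | _ | k
      · left; rfl
      · right; rfl
      · exfalso
        nlinarith
    rcases hk2 with rfl | rfl
    · left
      have : x.val = 0 := by omega
      exact (ZMod.val_eq_zero x).1 this
    · right
      have : x.val = m := by omega
      rw [← this, ZMod.natCast_zmod_val]

lemma kap_refl {n : ℕ} {κ : ZMod n → ℤ} (hκ1 : ∀ j, κ j = 1 ∨ κ j = -1)
    (hκm : ∀ a b, κ (a + b) = κ a * κ b) (e j : ZMod n) : κ (e + e - j) = κ j := by
  have h1 : κ (e + e - j) * κ j = κ e * κ e := by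
    rw [← hκm, ← hκm]
    congr 1
    ring
  rcases hκ1 (e + e - j) with a | a <;> rcases hκ1 j with b | b <;> rcases hκ1 e with c | c <;>
    rw [a, b, c] at h1 <;> rw [a, b] <;> norm_num at h1

/-- a sum over `Z/n` of a function with values in `Z/8` that is invariant under the reflection
`j ↦ 2e - j` and killed by `2` reduces to the two fixed points -/
lemma pair_sum {n : ℕ} [NeZero n] (g : ZMod n → ZMod 8) (e ι : ZMod n)
    (hι0 : ι ≠ 0) (hι2 : ι + ι = 0) (hι : ∀ x : ZMod n, x + x = 0 → x = 0 ∨ x = ι)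
    (hsymm : ∀ j, g (e + e - j) = g j) (h2 : ∀ j, g j + g j = 0) :
    ∑ j, g j = g e + g (e + ι) := by
  classical
  have hne : e ≠ e + ι := by
    intro h
    apply hι0
    have : e + ι = e + 0 := by rw [add_zero]; exact h.symm
    exact add_left_cancel this
  have hS := Finset.sum_sdiff (Finset.subset_univ ({e, e + ι} : Finset (ZMod n))) (f := g)
  rw [← hS, Finset.sum_pair hne]
  have hz : ∑ j ∈ Finset.univ \ {e, e + ι}, g j = 0 := by
    refine Finset.sum_involution (fun j _ => e + e - j) ?_ ?_ ?_ ?_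
    · intro j _
      rw [hsymm]
      exact h2 j
    · intro j hj _ hfix
      have h0 : (j - e) + (j - e) = 0 := by linear_combination (-1 : ZMod n) * hfix
      simp only [Finset.mem_sdiff, Finset.mem_univ, true_and, Finset.mem_insert,
        Finset.mem_singleton, not_or] at hj
      rcases hι _ h0 with h1 | h1
      · exact hj.1 (sub_eq_zero.1 h1)
      · exact hj.2 (by linear_combination h1)
    · intro j hj
      simp only [Finset.mem_sdiff, Finset.mem_univ, true_and, Finset.mem_insert,
        Finset.mem_singleton, not_or] at hj ⊢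
      refine ⟨fun h => hj.1 (by linear_combination (-1 : ZMod n) * h), fun h => hj.2 ?_⟩
      linear_combination (-1 : ZMod n) * h - hι2
    · intro j _
      exact sub_sub_cancel _ _
  rw [hz, zero_add]

/-- the main argument, for a sign character `κ` of `Z/n`, `n` even -/
lemma core {n : ℕ} [NeZero n] {h : ZMod n → ℤ} (hH : IsCirculantHadamardRow n h)
    (κ : ZMod n → ℤ) (hκ1 : ∀ j, κ j = 1 ∨ κ j = -1) (hκm : ∀ a b, κ (a + b) = κ a * κ b)
    (ε : ℤ) (hε : ε = 1 ∨ ε = -1) (s : ZMod n) (hsym : ∀ j, h (s - j) = ε * κ j * h j)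
    (ι : ZMod n) (hι0 : ι ≠ 0) (hι2 : ι + ι = 0)
    (hι : ∀ x : ZMod n, x + x = 0 → x = 0 ∨ x = ι) : n ≤ 4 := by
  classical
  have hpm := hH.1
  set A : ℤ := ∑ j, κ j + 2 * ∑ j, κ j * h j with hA
  have hF : ∀ e : ZMod n, e + e ≠ s →
      ∑ j, κ j * (1 + h j) * (1 + h (e + e - j)) = A := by
    intro e he
    have h1 : ∑ j, κ j * h (e + e - j) = ∑ j, κ j * h j := by
      refine Fintype.sum_equiv (Equiv.subLeft (e + e)) _ _ (fun j => ?_)
      simp only [Equiv.subLeft_apply]
      rw [kap_refl hκ1 hκm]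
    have h2 : ∑ j, κ j * h j * h (e + e - j) = 0 := by
      have h3 := autocorr hH 0 (e + e - s)
      rw [if_neg (by intro h0; exact he (sub_eq_zero.1 h0.symm))] at h3
      have h4 : ∑ j, κ j * h j * h (e + e - j)
          = ε * ∑ y, h (y + 0) * h (y + (e + e - s)) := by
        rw [Finset.mul_sum]
        refine Fintype.sum_equiv (Equiv.subLeft s) _ _ (fun j => ?_)
        simp only [Equiv.subLeft_apply]
        have e1 : s - j + 0 = s - j := add_zero _
        have e2 : s - j + (e + e - s) = e + e - j := by ring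
        rw [e1, e2, hsym j]
        rcases hε with rfl | rfl <;> ring
      rw [h4, h3, mul_zero]
    calc ∑ j, κ j * (1 + h j) * (1 + h (e + e - j))
        = ∑ j, (κ j + κ j * h j + κ j * h (e + e - j) + κ j * h j * h (e + e - j)) := by
          refine Finset.sum_congr rfl fun j _ => by ring
      _ = A := by
          rw [Finset.sum_add_distrib, Finset.sum_add_distrib, Finset.sum_add_distrib, h1, h2, hA]
          ring
  have hP : ∀ e : ZMod n, ((∑ j, κ j * (1 + h j) * (1 + h (e + e - j)) : ℤ) : ZMod 8)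
      = ((κ e * (1 + h e) * (1 + h e) : ℤ) : ZMod 8)
        + ((κ (e + ι) * (1 + h (e + ι)) * (1 + h (e + ι)) : ℤ) : ZMod 8) := by
    intro e
    rw [Int.cast_sum]
    have key := pair_sum (fun j => ((κ j * (1 + h j) * (1 + h (e + e - j)) : ℤ) : ZMod 8)) e ι
      hι0 hι2 hι ?_ ?_
    · rw [key]
      have e1 : e + e - e = e := by ring
      have e2 : e + e - (e + ι) = e + ι := by linear_combination (-1 : ZMod n) * hι2
      simp only [e1, e2]
    · intro j
      rw [kap_refl hκ1 hκm, sub_sub_cancel]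
      congr 1
      ring
    · intro j
      rcases hκ1 j with a | a <;> rcases hpm j with b | b <;>
        rcases hpm (e + e - j) with c | c <;> rw [a, b, c] <;> decide
  have hD : ∀ e : ZMod n, (((κ e * (1 + h e) * (1 + h e) : ℤ) : ZMod 8)
        + ((κ (e + ι) * (1 + h (e + ι)) * (1 + h (e + ι)) : ℤ) : ZMod 8) = 0)
      ↔ h e = h (e + ι) := by
    intro e
    rcases hκ1 e with a | a <;> rcases hκ1 (e + ι) with a' | a' <;> rcases hpm e with b | b <;>
      rcases hpm (e + ι) with c | c <;> rw [a, a', b, c] <;> decide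
  set δ : ℤ := if ((A : ℤ) : ZMod 8) = 0 then 1 else -1 with hδ
  have hterm : ∀ j : ZMod n, j + j ≠ s → δ * (h j * h (j + ι)) = 1 := by
    intro j hj
    have hiff : ((A : ℤ) : ZMod 8) = 0 ↔ h j = h (j + ι) := by
      rw [← hF j hj, hP j]
      exact hD j
    by_cases hA0 : ((A : ℤ) : ZMod 8) = 0
    · rw [hδ, if_pos hA0, ← hiff.1 hA0]
      rcases hpm j with b | b <;> rw [b] <;> norm_num
    · rw [hδ, if_neg hA0]
      have hne : h j ≠ h (j + ι) := fun h' => hA0 (hiff.2 h')
      rcases hpm j with b | b <;> rcases hpm (j + ι) with c | c <;> rw [b, c] at hne ⊢ <;>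
        first
          | exact absurd rfl hne
          | norm_num
  have hbad : (Finset.univ.filter (fun j : ZMod n => j + j = s)).card ≤ 2 := by
    by_cases hex : ∃ a : ZMod n, a + a = s
    · obtain ⟨a, ha⟩ := hex
      have hsub : Finset.univ.filter (fun j : ZMod n => j + j = s) ⊆ {a, a + ι} := by
        intro j hj
        rw [Finset.mem_filter] at hj
        have h0 : (j - a) + (j - a) = 0 := by linear_combination hj.2 - ha
        rcases hι _ h0 with h1 | h1
        · simp [sub_eq_zero.1 h1]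
        · have : j = a + ι := by linear_combination h1
          simp [this]
      exact (Finset.card_le_card hsub).trans Finset.card_le_two
    · have : Finset.univ.filter (fun j : ZMod n => j + j = s) = ∅ := by
        apply Finset.filter_eq_empty_iff.2
        intro j _ hj
        exact hex ⟨j, hj⟩
      rw [this]
      simp
  have hsum0 : ∑ j, δ * (h j * h (j + ι)) = 0 := by
    have h3 := autocorr hH 0 ι
    rw [if_neg (Ne.symm hι0)] at h3
    simp only [add_zero] at h3
    rw [← Finset.mul_sum, h3, mul_zero]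
  have hlow : ∀ j : ZMod n,
      (1 : ℤ) - 2 * (if j + j = s then 1 else 0) ≤ δ * (h j * h (j + ι)) := by
    intro j
    by_cases hj : j + j = s
    · rw [if_pos hj]
      have hδ' : δ = 1 ∨ δ = -1 := by
        rw [hδ]
        split_ifs
        · left; rfl
        · right; rfl
      rcases hδ' with d | d <;> rcases hpm j with b | b <;> rcases hpm (j + ι) with c | c <;>
        rw [d, b, c] <;> norm_num
    · rw [if_neg hj, hterm j hj]
      norm_num
  have hle := Finset.sum_le_sum (fun j (_ : j ∈ (Finset.univ : Finset (ZMod n))) => hlow j)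
  rw [hsum0, Finset.sum_sub_distrib, ← Finset.mul_sum, Finset.sum_boole] at hle
  simp only [Finset.sum_const, Finset.card_univ, ZMod.card, nsmul_eq_mul, mul_one] at hle
  have h4 : (n : ℤ) ≤ 4 := by
    have := (Nat.cast_le (α := ℤ)).2 hbad
    push_cast at this
    linarith
  exact_mod_cast h4

/-- odd orders -/
lemma odd_case {n : ℕ} [NeZero n] {h : ZMod n → ℤ} (hH : IsCirculantHadamardRow n h)
    (hodd : ¬ Even n) : n = 1 := by
  by_contra hn1
  have hn : 1 < n := by
    have := NeZero.ne n
    omega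
  have : Fact (1 < n) := ⟨hn⟩
  have h3 := autocorr hH 0 1
  rw [if_neg (zero_ne_one)] at h3
  have h4 : ((∑ y, h (y + 0) * h (y + 1) : ℤ) : ZMod 2) = (n : ZMod 2) := by
    rw [Int.cast_sum]
    have : ∀ y : ZMod n, ((h (y + 0) * h (y + 1) : ℤ) : ZMod 2) = 1 := by
      intro y
      rcases hH.1 (y + 0) with b | b <;> rcases hH.1 (y + 1) with c | c <;> rw [b, c] <;> decide
    rw [Finset.sum_congr rfl (fun y _ => this y)]
    simp
  rw [h3, Int.cast_zero] at h4
  have h5 := (ZMod.natCast_eq_zero_iff n 2).1 h4.symm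
  exact hodd (even_iff_two_dvd.2 h5)

/-- order two -/
lemma not_two {h : ZMod 2 → ℤ} (hH : IsCirculantHadamardRow 2 h) : False := by
  have h3 := autocorr hH 0 1
  rw [if_neg (by decide)] at h3
  have h4 : ∑ y : ZMod 2, h (y + 0) * h (y + 1)
      = h (0 + 0) * h (0 + 1) + h (1 + 0) * h (1 + 1) :=
    Fin.sum_univ_two (fun y : ZMod 2 => h (y + 0) * h (y + 1))
  rw [h4] at h3
  have e1 : (0 : ZMod 2) + 0 = 0 := by decide
  have e2 : (0 : ZMod 2) + 1 = 1 := by decide
  have e3 : (1 : ZMod 2) + 0 = 1 := by decide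
  have e4 : (1 : ZMod 2) + 1 = 0 := by decide
  rw [e1, e2, e3, e4] at h3
  rcases hH.1 0 with b | b <;> rcases hH.1 1 with c | c <;> rw [b, c] at h3 <;> norm_num at h3

/-- the general statement -/
theorem main (n : ℕ) [NeZero n] (h : ZMod n → ℤ) (hH : IsCirculantHadamardRow n h)
    (s : ZMod n) (ε τ : ℤ) (hε : ε = 1 ∨ ε = -1) (hτ : τ = 1 ∨ τ = -1)
    (hsym : ∀ j : ZMod n, h (s - j) = ε * τ ^ j.val * h j) : n = 1 ∨ n = 4 := by
  by_cases hev : Even n
  · right
    obtain ⟨ι, hι0, hι2, hι⟩ := exists_iota hev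
    have hκ1 : ∀ j : ZMod n, τ ^ j.val = 1 ∨ τ ^ j.val = -1 := by
      intro j
      rcases hτ with rfl | rfl
      · left; simp
      · exact neg_one_pow_eq_or ℤ _
    have hmod : ∀ x : ℕ, τ ^ (x % n) = τ ^ x := by
      intro x
      have hn1 : τ ^ n = 1 := by
        rcases hτ with rfl | rfl
        · simp
        · exact hev.neg_one_pow
      conv_rhs => rw [← Nat.div_add_mod x n, pow_add, pow_mul, hn1, one_pow, one_mul]
    have hκm : ∀ a b : ZMod n, τ ^ (a + b).val = τ ^ a.val * τ ^ b.val := by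
      intro a b
      rw [ZMod.val_add, hmod, pow_add]
    have h4 := core hH (fun j => τ ^ j.val) hκ1 hκm ε hε s hsym ι hι0 hι2 hι
    have hn0 := NeZero.ne n
    obtain ⟨m, hm⟩ := hev
    have hcases : n = 2 ∨ n = 4 := by omega
    rcases hcases with h2 | h2
    · exfalso
      subst h2
      exact not_two hH
    · exact h2
  · left
    exact odd_case hH hev

/-- the first row `(1, 1, 1, -1)` -/
def h4 : ZMod 4 → ℤ := fun j => if j = 3 then -1 else 1

lemma h4_row : IsCirculantHadamardRow 4 h4 := by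
  refine ⟨fun j => ?_, ?_⟩
  · unfold h4
    split_ifs
    · right; rfl
    · left; rfl
  · decide

/-- **No circulant Hadamard matrix of order `n > 4` has a first row with a reflection symmetry,
plain or twisted by the alternating sign.**  If `h` is the first row of a real circulant Hadamard
matrix of order `n` and `h (s - j) = ε τ ^ j h (j)` for all residues `j` (`0 ≤ j < n` the
representative in the exponent), with fixed `s` and signs `ε`, `τ`, then `n = 1` or `n = 4`.
Both kinds of symmetry do occur in order `4`. -/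
theorem result :
    (∀ (n : ℕ) [NeZero n] (h : ZMod n → ℤ), IsCirculantHadamardRow n h →
      ∀ (s : ZMod n) (ε τ : ℤ), (ε = 1 ∨ ε = -1) → (τ = 1 ∨ τ = -1) →
        (∀ j : ZMod n, h (s - j) = ε * τ ^ j.val * h j) → n = 1 ∨ n = 4) ∧
    (∃ h : ZMod 4 → ℤ, IsCirculantHadamardRow 4 h ∧
      (∀ j : ZMod 4, h (2 - j) = 1 * 1 ^ j.val * h j) ∧
      (∀ j : ZMod 4, h (0 - j) = 1 * (-1) ^ j.val * h j)) :=
  ⟨fun n _ h hH s ε τ hε hτ hsym => main n h hH s ε τ hε hτ hsym,
    h4, h4_row, by decide, by decide⟩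

end Vale.Agent.Results.P033.TwistedReflection
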