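import Vale.Agent.Results.P033.RunBound
import Vale.Agent.Results.P033.TwistedReflection

namespace Vale.Agent.Results.P033.A_Combined

open Vale.Agent.Results.P033.TwistedReflection

/-- Two restrictions on the first row `h` of a real circulant Hadamard matrix of order `n`.
(1) If `h` has a reflection symmetry, plain or twisted by the alternating sign, then `n = 1` or
`n = 4`; (2) both kinds of symmetry occur in order `4`; (3) along an arithmetic progression of `L`
distinct residues `h` cannot be constant or alternating unless `n * sin (π / (2 L)) ^ 2 ≥ 1`, so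
`L < (π / 2) * √n`. -/
theorem result :
    (∀ (n : ℕ) [NeZero n] (h : ZMod n → ℤ), IsCirculantHadamardRow n h →
      ∀ (s : ZMod n) (ε τ : ℤ), (ε = 1 ∨ ε = -1) → (τ = 1 ∨ τ = -1) →
        (∀ j : ZMod n, h (s - j) = ε * τ ^ j.val * h j) → n = 1 ∨ n = 4) ∧
    (∃ h : ZMod 4 → ℤ, IsCirculantHadamardRow 4 h ∧
      (∀ j : ZMod 4, h (2 - j) = 1 * 1 ^ j.val * h j) ∧
      (∀ j : ZMod 4, h (0 - j) = 1 * (-1) ^ j.val * h j)) ∧
    (∀ (n : ℕ) [NeZero n] (h : ZMod n → ℤ), IsCirculantHadamardRow n h →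
      ∀ (r d : ZMod n) (L : ℕ), 1 ≤ L → ∀ (σ τ : ℤ), (σ = 1 ∨ σ = -1) → (τ = 1 ∨ τ = -1) →
        (∀ i < L, ∀ j < L, r + (i : ZMod n) * d = r + (j : ZMod n) * d → i = j) →
        (∀ i < L, h (r + (i : ZMod n) * d) = σ * τ ^ i) →
        1 ≤ (n : ℝ) * Real.sin (Real.pi / (2 * L)) ^ 2 ∧ 4 * (L : ℝ) ^ 2 < Real.pi ^ 2 * n) :=
  ⟨TwistedReflection.result.1, TwistedReflection.result.2,
    fun n _ h hH r d L hL σ τ hσ hτ hinj hrun =>
      RunBound.result n h (show RunBound.IsCirculantHadamardRow n h from hH) r d L hL σ τ hσ hτ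
        hinj hrun⟩

end Vale.Agent.Results.P033.A_Combined
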