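import Mathlib

namespace Vale.Agent.Results.P033.RunBound

open Finset Real

/-- `h` is the first row of a real circulant Hadamard matrix of order `n`: the circulant matrix
`H i j = h (j - i)` (indices mod `n`) has all entries `±1` and satisfies `H Hᵀ = n I`. -/
def IsCirculantHadamardRow (n : ℕ) [NeZero n] (h : ZMod n → ℤ) : Prop :=
  (∀ j, h j = 1 ∨ h j = -1) ∧
  (Matrix.of fun i j : ZMod n => h (j - i)) * (Matrix.of fun i j : ZMod n => h (j - i)).transpose
    = (n : ℤ) • (1 : Matrix (ZMod n) (ZMod n) ℤ)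

lemma autocorr {n : ℕ} [NeZero n] {h : ZMod n → ℤ} (hH : IsCirculantHadamardRow n h)
    (a b : ZMod n) : ∑ y, h (y + a) * h (y + b) = if a = b then (n : ℤ) else 0 := by
  have h2 := congrFun (congrFun hH.2 (-a)) (-b)
  simp only [Matrix.mul_apply, Matrix.transpose_apply, Matrix.of_apply, sub_neg_eq_add,
    Matrix.smul_apply, Matrix.one_apply, neg_inj] at h2
  rw [h2]
  split_ifs <;> simp

lemma energy {n : ℕ} [NeZero n] {h : ZMod n → ℤ} (hH : IsCirculantHadamardRow n h)
    (c : ℕ → ℝ) (L : ℕ) (d : ZMod n)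
    (hinj : ∀ i < L, ∀ j < L, (i : ZMod n) * d = (j : ZMod n) * d → i = j) :
    ∑ y : ZMod n, (∑ j ∈ range L, c j * (h (y + (j : ZMod n) * d) : ℝ)) ^ 2
      = (n : ℝ) * ∑ j ∈ range L, (c j) ^ 2 := by
  have key : ∀ j j' : ℕ, ∑ y : ZMod n, ((h (y + (j : ZMod n) * d) : ℝ) * (h (y + (j' : ZMod n) * d) : ℝ))
      = if (j : ZMod n) * d = (j' : ZMod n) * d then (n : ℝ) else 0 := by
    intro j j'
    have := autocorr hH ((j : ZMod n) * d) ((j' : ZMod n) * d)
    have h3 : ((∑ y, h (y + (j : ZMod n) * d) * h (y + (j' : ZMod n) * d) : ℤ) : ℝ)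
        = ((if (j : ZMod n) * d = (j' : ZMod n) * d then (n : ℤ) else 0 : ℤ) : ℝ) := by
      rw [this]
    push_cast at h3
    rw [h3]
  calc ∑ y : ZMod n, (∑ j ∈ range L, c j * (h (y + (j : ZMod n) * d) : ℝ)) ^ 2
      = ∑ y : ZMod n, ∑ j ∈ range L, ∑ j' ∈ range L,
          (c j * c j') * ((h (y + (j : ZMod n) * d) : ℝ) * (h (y + (j' : ZMod n) * d) : ℝ)) := by
        refine sum_congr rfl fun y _ => ?_
        rw [sq, sum_mul_sum]
        refine sum_congr rfl fun j _ => sum_congr rfl fun j' _ => ?_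
        ring
    _ = ∑ j ∈ range L, ∑ j' ∈ range L, (c j * c j') *
          ∑ y : ZMod n, ((h (y + (j : ZMod n) * d) : ℝ) * (h (y + (j' : ZMod n) * d) : ℝ)) := by
        rw [sum_comm]
        refine sum_congr rfl fun j _ => ?_
        rw [sum_comm]
        refine sum_congr rfl fun j' _ => ?_
        rw [mul_sum]
    _ = ∑ j ∈ range L, (n : ℝ) * (c j) ^ 2 := by
        refine sum_congr rfl fun j hj => ?_
        rw [sum_eq_single j]
        · rw [key]; simp; ring
        · intro j' hj' hne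
          rw [key, if_neg]
          · simp
          · intro he
            exact hne (hinj j (mem_range.mp hj) j' (mem_range.mp hj') he).symm
        · intro hj'; exact absurd hj hj'
    _ = (n : ℝ) * ∑ j ∈ range L, (c j) ^ 2 := by rw [mul_sum]


lemma sin_partial (θ : ℝ) (k : ℕ) :
    2 * sin θ * ∑ j ∈ range k, sin ((2 * (j : ℝ) + 1) * θ) = 1 - cos (2 * (k : ℝ) * θ) := by
  induction k with
  | zero => simp
  | succ k ih =>
    rw [sum_range_succ, mul_add, ih]
    have h1 : cos (2 * ((k + 1 : ℕ) : ℝ) * θ) = cos ((2 * (k : ℝ) + 1) * θ + θ) := by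
      congr 1; push_cast; ring
    have h2 : cos (2 * (k : ℝ) * θ) = cos ((2 * (k : ℝ) + 1) * θ - θ) := by
      congr 1; ring
    rw [h1, h2, cos_add, cos_sub]
    ring

lemma cos_partial (α β : ℝ) (m : ℕ) :
    2 * sin β * ∑ k ∈ range m, cos (α + 2 * (k : ℝ) * β)
      = sin (α + (2 * (m : ℝ) - 1) * β) - sin (α - β) := by
  induction m with
  | zero => simp; ring_nf
  | succ m ih =>
    rw [sum_range_succ, mul_add, ih]
    have h1 : sin (α + (2 * ((m + 1 : ℕ) : ℝ) - 1) * β) = sin ((α + 2 * (m : ℝ) * β) + β) := by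
      congr 1; push_cast; ring
    have h2 : sin (α + (2 * (m : ℝ) - 1) * β) = sin ((α + 2 * (m : ℝ) * β) - β) := by
      congr 1; ring
    rw [h1, h2, sin_add, sin_sub]
    ring

lemma cos_full (α : ℝ) (L : ℕ) (hL : 2 ≤ L) :
    ∑ k ∈ range L, cos (α + 2 * (k : ℝ) * (π / L)) = 0 := by
  have hLpos : (0 : ℝ) < L := by positivity
  have h := cos_partial α (π / L) L
  have h1 : α + (2 * (L : ℝ) - 1) * (π / L) = (α - π / L) + 2 * π := by
    field_simp; ring
  rw [h1, sin_add_two_pi, sub_self] at h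
  have hs : 0 < sin (π / L) := by
    apply sin_pos_of_pos_of_lt_pi
    · positivity
    · rw [div_lt_iff₀ hLpos]
      have : (2 : ℝ) ≤ L := by exact_mod_cast hL
      nlinarith [pi_pos]
  have : 2 * sin (π / L) ≠ 0 := by positivity
  exact (mul_eq_zero.mp h).resolve_left this

lemma sum_ite_lt (w : ℕ → ℝ) (L m : ℕ) (hm : m ≤ L) :
    ∑ j ∈ range L, (if j < m then w j else 0) = ∑ j ∈ range m, w j := by
  rw [← sum_filter]
  congr 1
  ext j
  simp only [mem_filter, mem_range]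
  omega

lemma lower_bound (L c : ℕ) (hL : 1 ≤ L) (hc : c ≤ L) (g : ℕ → ℝ) (hg : ∀ i, -1 ≤ g i)
    (hrun : ∀ i, c ≤ i → i < c + L → g i = 1) (k : ℕ) (hk : k < L) :
    cos (2 * ((k : ℝ) - c) * (π / (2 * L)))
      ≤ sin (π / (2 * L)) * ∑ j ∈ range L, sin ((2 * (j : ℝ) + 1) * (π / (2 * L))) * g (k + j) := by
  set θ : ℝ := π / (2 * L) with hθ
  have hLpos : (0 : ℝ) < L := by positivity
  have hθpos : 0 < θ := by positivity
  have hLθ : 2 * (L : ℝ) * θ = π := by rw [hθ]; field_simp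
  have hw : ∀ j ∈ range L, 0 ≤ sin ((2 * (j : ℝ) + 1) * θ) := by
    intro j hj
    have hj' : (j : ℝ) + 1 ≤ L := by exact_mod_cast mem_range.mp hj
    apply sin_nonneg_of_nonneg_of_le_pi
    · positivity
    · nlinarith
  have hs : 0 < sin θ := by
    apply sin_pos_of_pos_of_lt_pi hθpos
    have : (1 : ℝ) ≤ L := by exact_mod_cast hL
    nlinarith
  have hW := sin_partial θ L
  rw [hLθ, cos_pi] at hW
  rcases le_total k c with hkc | hkc
  · -- case k ≤ c
    obtain ⟨m, hm⟩ : ∃ m, c = k + m := ⟨c - k, by omega⟩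
    have hF := sin_partial θ m
    have h1 : ∑ j ∈ range L, (sin ((2 * (j : ℝ) + 1) * θ)
          - 2 * (if j < m then sin ((2 * (j : ℝ) + 1) * θ) else 0))
        ≤ ∑ j ∈ range L, sin ((2 * (j : ℝ) + 1) * θ) * g (k + j) := by
      refine sum_le_sum fun j hj => ?_
      have hwj := hw j hj
      split_ifs with hjm
      · nlinarith [hg (k + j)]
      · rw [hrun (k + j) (by omega) (by have := mem_range.mp hj; omega)]; linarith
    rw [sum_sub_distrib, ← mul_sum, sum_ite_lt _ L m (by omega)] at h1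
    have h2 : cos (2 * ((k : ℝ) - c) * θ) = cos (2 * (m : ℝ) * θ) := by
      rw [← cos_neg]; congr 1; rw [hm]; push_cast; ring
    rw [h2]
    nlinarith
  · -- case c ≤ k
    obtain ⟨m, hm⟩ : ∃ m, c + L = k + m := ⟨c + L - k, by omega⟩
    have hF := sin_partial θ m
    have h1 : ∑ j ∈ range L, (2 * (if j < m then sin ((2 * (j : ℝ) + 1) * θ) else 0)
          - sin ((2 * (j : ℝ) + 1) * θ))
        ≤ ∑ j ∈ range L, sin ((2 * (j : ℝ) + 1) * θ) * g (k + j) := by
      refine sum_le_sum fun j hj => ?_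
      have hwj := hw j hj
      split_ifs with hjm
      · rw [hrun (k + j) (by omega) (by omega)]; linarith
      · nlinarith [hg (k + j)]
    rw [sum_sub_distrib, ← mul_sum, sum_ite_lt _ L m (by omega)] at h1
    have hm' : (m : ℝ) = c + L - k := by
      have : ((c + L : ℕ) : ℝ) = ((k + m : ℕ) : ℝ) := by rw [hm]
      push_cast at this; linarith
    have h2 : cos (2 * (m : ℝ) * θ) = - cos (2 * ((k : ℝ) - c) * θ) := by
      rw [← cos_pi_sub]; congr 1; rw [hm', ← hLθ]; ring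
    rw [h2] at hF
    nlinarith

/-- Along any arithmetic progression `r, r + d, r + 2d, …` of `L` distinct residues mod `n`, the first
row of a circulant Hadamard matrix of order `n` cannot be constant (`τ = 1`) or alternating (`τ = -1`)
unless `n * sin (π / (2 L)) ^ 2 ≥ 1`; in particular `L < (π / 2) * √n`. -/
theorem result (n : ℕ) [NeZero n] (h : ZMod n → ℤ) (hH : IsCirculantHadamardRow n h)
    (r d : ZMod n) (L : ℕ) (hL : 1 ≤ L) (σ τ : ℤ) (hσ : σ = 1 ∨ σ = -1) (hτ : τ = 1 ∨ τ = -1)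
    (hinj : ∀ i < L, ∀ j < L, r + (i : ZMod n) * d = r + (j : ZMod n) * d → i = j)
    (hrun : ∀ i < L, h (r + (i : ZMod n) * d) = σ * τ ^ i) :
    1 ≤ (n : ℝ) * Real.sin (π / (2 * L)) ^ 2 ∧ 4 * (L : ℝ) ^ 2 < π ^ 2 * n := by
  have hLpos : (0 : ℝ) < L := by positivity
  have hnpos : (1 : ℝ) ≤ n := by
    have : 1 ≤ n := Nat.one_le_iff_ne_zero.mpr (NeZero.ne n)
    exact_mod_cast this
  have main : 1 ≤ (n : ℝ) * Real.sin (π / (2 * L)) ^ 2 := by
    rcases Nat.lt_or_ge L 2 with hL2 | hL2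
    · have : L = 1 := by omega
      subst this
      have : π / (2 * ((1 : ℕ) : ℝ)) = π / 2 := by norm_num
      rw [this, sin_pi_div_two]; simpa using hnpos
    set θ : ℝ := π / (2 * L) with hθ
    have hLθ : 2 * (L : ℝ) * θ = π := by rw [hθ]; field_simp
    have h2θ : 2 * θ = π / L := by rw [hθ]; field_simp
    set c : ℕ := (L - 1) / 2 with hc
    set r' : ZMod n := r - (c : ZMod n) * d with hr'
    have hσ2 : (σ : ℝ) ^ 2 = 1 := by rcases hσ with h | h <;> simp [h]
    have hτ2 : (τ : ℝ) ^ 2 = 1 := by rcases hτ with h | h <;> simp [h]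
    have hτpow : ∀ i : ℕ, ((τ : ℝ) ^ i) ^ 2 = 1 := by
      intro i; rw [← pow_mul, mul_comm, pow_mul, hτ2, one_pow]
    have hh2 : ∀ y, ((h y : ℝ)) ^ 2 = 1 := by
      intro y; rcases hH.1 y with h | h <;> simp [h]
    set g : ℕ → ℝ := fun i => (τ : ℝ) ^ i * (h (r' + (i : ZMod n) * d) : ℝ) * ((σ : ℝ) * (τ : ℝ) ^ c)
      with hgdef
    have hg2 : ∀ i, (g i) ^ 2 = 1 := by
      intro i
      simp only [hgdef]
      rw [mul_pow, mul_pow, mul_pow, hτpow, hτpow, hh2, hσ2]; norm_num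
    have hg : ∀ i, -1 ≤ g i := by
      intro i; nlinarith [hg2 i, sq_nonneg (g i + 1)]
    have hgrun : ∀ i, c ≤ i → i < c + L → g i = 1 := by
      intro i hi1 hi2
      obtain ⟨e, rfl⟩ : ∃ e, i = c + e := ⟨i - c, by omega⟩
      have he : e < L := by omega
      have h1 : r' + ((c + e : ℕ) : ZMod n) * d = r + (e : ZMod n) * d := by
        rw [hr']; push_cast; ring
      simp only [hgdef]
      rw [h1, hrun e he]
      push_cast
      have : (τ : ℝ) ^ (c + e) * ((σ : ℝ) * (τ : ℝ) ^ e) * ((σ : ℝ) * (τ : ℝ) ^ c)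
          = (σ : ℝ) ^ 2 * ((τ : ℝ) ^ (c + e)) ^ 2 := by
        rw [pow_add]; ring
      rw [this, hσ2, hτpow]; norm_num
    set w : ℕ → ℝ := fun j => sin ((2 * (j : ℝ) + 1) * θ) with hw
    set cj : ℕ → ℝ := fun j => w j * (τ : ℝ) ^ j with hcj
    have hinj' : ∀ i < L, ∀ j < L, (i : ZMod n) * d = (j : ZMod n) * d → i = j := by
      intro i hi j hj hij
      exact hinj i hi j hj (by rw [hij])
    have E := energy hH cj L d hinj'
    set inner : ZMod n → ℝ := fun y => ∑ j ∈ range L, cj j * (h (y + (j : ZMod n) * d) : ℝ)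
      with hinner
    -- sum of squares of the weights
    have hwsum : ∑ j ∈ range L, (cj j) ^ 2 = (L : ℝ) / 2 := by
      have h1 : ∀ j ∈ range L, (cj j) ^ 2 = 1 / 2 - cos (π / L + 2 * (j : ℝ) * (π / L)) / 2 := by
        intro j _
        simp only [hcj, hw]
        rw [mul_pow, hτpow, mul_one, sin_sq_eq_half_sub]
        congr 2
        rw [← h2θ]; ring_nf
      rw [sum_congr rfl h1, sum_sub_distrib, ← sum_div, ← sum_div, cos_full _ L hL2]
      simp
    have hzsum : ∑ k ∈ range L, (cos (2 * ((k : ℝ) - c) * θ)) ^ 2 = (L : ℝ) / 2 := by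
      have h1 : ∀ k ∈ range L, (cos (2 * ((k : ℝ) - c) * θ)) ^ 2
          = 1 / 2 + cos (-(2 * (c : ℝ) * (π / L)) + 2 * (k : ℝ) * (π / L)) / 2 := by
        intro k _
        rw [cos_sq]
        congr 2
        rw [← h2θ]; ring_nf
      rw [sum_congr rfl h1, sum_add_distrib, ← sum_div, ← sum_div, cos_full _ L hL2]
      simp
    -- the windows
    have hU : ∀ k, ∑ j ∈ range L, w j * g (k + j)
        = ((τ : ℝ) ^ k * ((σ : ℝ) * (τ : ℝ) ^ c)) * inner (r' + (k : ZMod n) * d) := by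
      intro k
      simp only [hinner]
      rw [mul_sum]
      refine sum_congr rfl fun j _ => ?_
      simp only [hgdef, hcj]
      have : r' + ((k + j : ℕ) : ZMod n) * d = r' + (k : ZMod n) * d + (j : ZMod n) * d := by
        push_cast; ring
      rw [this, pow_add]; ring
    have hstep : ∀ k ∈ range L, (cos (2 * ((k : ℝ) - c) * θ)) ^ 2
        ≤ sin θ ^ 2 * (inner (r' + (k : ZMod n) * d)) ^ 2 := by
      intro k hk
      have hk' := mem_range.mp hk
      have hlb := lower_bound L c hL (by omega) g hg hgrun k hk'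
      rw [← hθ] at hlb
      have hU' := hU k
      simp only [hw] at hU'
      rw [hU'] at hlb
      have hcos : 0 ≤ cos (2 * ((k : ℝ) - c) * θ) := by
        have hc1 : 2 * (c : ℝ) + 1 ≤ L := by
          have : 2 * c + 1 ≤ L := by omega
          exact_mod_cast this
        have hc2 : (L : ℝ) ≤ 2 * (c : ℝ) + 2 := by
          have : L ≤ 2 * c + 2 := by omega
          exact_mod_cast this
        have hk1 : (k : ℝ) + 1 ≤ L := by exact_mod_cast hk'
        have hk0 : (0 : ℝ) ≤ k := by positivity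
        have hθpos : 0 < θ := by positivity
        apply cos_nonneg_of_neg_pi_div_two_le_of_le
        · nlinarith
        · nlinarith
      have hsq : ((τ : ℝ) ^ k * ((σ : ℝ) * (τ : ℝ) ^ c)) ^ 2 = 1 := by
        rw [mul_pow, mul_pow, hτpow, hτpow, hσ2]; norm_num
      calc (cos (2 * ((k : ℝ) - c) * θ)) ^ 2
          ≤ (sin θ * (((τ : ℝ) ^ k * ((σ : ℝ) * (τ : ℝ) ^ c)) * inner (r' + (k : ZMod n) * d))) ^ 2 :=
            pow_le_pow_left₀ hcos hlb 2
        _ = sin θ ^ 2 * (inner (r' + (k : ZMod n) * d)) ^ 2 := by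
            rw [mul_pow, mul_pow, hsq, one_mul]
    have hsub : ∑ k ∈ range L, (inner (r' + (k : ZMod n) * d)) ^ 2 ≤ ∑ y : ZMod n, (inner y) ^ 2 := by
      have hinjOn : Set.InjOn (fun k : ℕ => r' + (k : ZMod n) * d) (range L : Set ℕ) := by
        intro i hi j hj hij
        have hi' : i < L := by simpa using hi
        have hj' : j < L := by simpa using hj
        exact hinj' i hi' j hj' (add_left_cancel hij)
      rw [← sum_image (f := fun y => (inner y) ^ 2) hinjOn]
      exact sum_le_sum_of_subset_of_nonneg (subset_univ _) (fun _ _ _ => sq_nonneg _)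
    have hfinal : (L : ℝ) / 2 ≤ sin θ ^ 2 * ((n : ℝ) * ((L : ℝ) / 2)) := by
      calc (L : ℝ) / 2 = ∑ k ∈ range L, (cos (2 * ((k : ℝ) - c) * θ)) ^ 2 := hzsum.symm
        _ ≤ ∑ k ∈ range L, sin θ ^ 2 * (inner (r' + (k : ZMod n) * d)) ^ 2 := sum_le_sum hstep
        _ = sin θ ^ 2 * ∑ k ∈ range L, (inner (r' + (k : ZMod n) * d)) ^ 2 := by rw [mul_sum]
        _ ≤ sin θ ^ 2 * ∑ y : ZMod n, (inner y) ^ 2 :=
            mul_le_mul_of_nonneg_left hsub (sq_nonneg _)
        _ = sin θ ^ 2 * ((n : ℝ) * ((L : ℝ) / 2)) := by rw [E, hwsum]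
    have : (L : ℝ) / 2 * 1 ≤ (L : ℝ) / 2 * ((n : ℝ) * sin θ ^ 2) := by nlinarith
    exact le_of_mul_le_mul_left this (by positivity)
  refine ⟨main, ?_⟩
  have hx : 0 < π / (2 * L) := by positivity
  have hs1 : sin (π / (2 * L)) < π / (2 * L) := sin_lt hx
  have hs0 : 0 ≤ sin (π / (2 * L)) := by
    apply sin_nonneg_of_nonneg_of_le_pi hx.le
    rw [div_le_iff₀ (by positivity)]
    have : (1 : ℝ) ≤ L := by exact_mod_cast hL
    nlinarith [pi_pos]
  have hs2 : sin (π / (2 * L)) ^ 2 < (π / (2 * L)) ^ 2 := pow_lt_pow_left₀ hs1 hs0 (by norm_num)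
  have h3 : 1 < (n : ℝ) * (π / (2 * L)) ^ 2 := by
    have : (n : ℝ) * sin (π / (2 * L)) ^ 2 < (n : ℝ) * (π / (2 * L)) ^ 2 :=
      mul_lt_mul_of_pos_left hs2 (by linarith)
    linarith
  rw [div_pow, mul_div_assoc'] at h3
  rw [lt_div_iff₀ (by positivity)] at h3
  nlinarith

end Vale.Agent.Results.P033.RunBound
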